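import Vale.Agent.H9.GenK.WFubini

/-!
# The good ray (step 1 of the sharp-end lemma of the general-body project for P243)

`T ⊆ X × ℝ` is a compact convex set over a two-dimensional base `X`, `S = Prod.fst '' T` its
shadow, `p` a base point over which the fibre has length at least `L`.  If the chord over `p` is
almost extremal (`(3 - δ) vol T ≤ L * area S`), then some ray from `p` through the half-disc
`closedBall q0 (ρ / 2)` is good: along it the chord length is at most the cone value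
`L (1 - t / r)` plus `6 δ L (R / ρ) ^ 2`.
-/

open MeasureTheory Set Module
open scoped ENNReal Pointwise

set_option linter.unusedSectionVars false
set_option linter.unusedVariables false

namespace Vale.Agent.H82.GenK

open Vale.Agent.H76

section Base

variable {X : Type*} [NormedAddCommGroup X] [InnerProductSpace ℝ X]

/-- Interpolation along a ray: a bad point on the ray lifts the chord function above the cone
function on the middle part of the ray. -/
theorem gr_interp {T : Set (X × ℝ)} (hTc : Convex ℝ T) {p w : X} {r L m tw : ℝ} (hr : 0 < r)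
    (hm0 : 0 ≤ m) (hmL : m ≤ L) (hp : p ∈ Lev T L) (hend : p + r • w ∈ Prod.fst '' T)
    (htw0 : 0 ≤ tw) (htwr : tw ≤ r) (hbad : p + tw • w ∈ Lev T (L * (1 - tw / r) + m))
    {μ lam : ℝ} (hμ0 : 0 < μ) (hμl : μ ≤ lam) (hl1 : 1 / 4 ≤ lam) (hl2 : lam ≤ 3 / 4) :
    p + (μ * r) • w ∈ Lev T (L * (1 - lam) + m / 4) := by
  have hμr : 0 < μ * r := mul_pos hμ0 hr
  have hL0 : 0 ≤ L := hm0.trans hmL
  rcases le_or_gt (μ * r) tw with hcase | hcase
  · -- between `p` and the bad point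
    have htw : 0 < tw := lt_of_lt_of_le hμr hcase
    set α : ℝ := μ * r / tw with hα
    have hαtw : α * tw = μ * r := by rw [hα]; field_simp
    have hα0 : 0 ≤ α := by rw [hα]; positivity
    have hα1 : α ≤ 1 := by rw [hα, div_le_one htw]; exact hcase
    have hαq : α * (tw / r) = μ := by
      rw [← mul_div_assoc, hαtw]; field_simp
    have hμα : μ ≤ α := by
      have h1 : tw / r ≤ 1 := by rw [div_le_one hr]; exact htwr
      have : α * (tw / r) ≤ α * 1 := mul_le_mul_of_nonneg_left h1 hα0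
      linarith
    have hmem : p + (μ * r) • w ∈ (1 - α) • Lev T L + α • Lev T (L * (1 - tw / r) + m) := by
      have : p + (μ * r) • w = (1 - α) • p + α • (p + tw • w) := by
        rw [← hαtw]; module
      rw [this]
      exact Set.add_mem_add (Set.smul_mem_smul_set hp) (Set.smul_mem_smul_set hbad)
    have h2 := Lev_combo hTc (sub_nonneg.2 hα1) hα0 (by ring) L (L * (1 - tw / r) + m) hmem
    refine Lev_anti T ?_ h2
    have e : (1 - α) * L + α * (L * (1 - tw / r) + m) = L - L * (α * (tw / r)) + α * m := by ring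
    rw [e, hαq]
    nlinarith [mul_le_mul_of_nonneg_right hμα hm0, mul_nonneg (sub_nonneg.2 hμl) (sub_nonneg.2 hmL),
      mul_nonneg hm0 (sub_nonneg.2 hl1)]
  · -- between the bad point and the end of the ray
    have hμ1 : μ ≤ 3 / 4 := hμl.trans hl2
    have hlt : tw < r := by nlinarith
    have hd : 0 < r - tw := sub_pos.2 hlt
    set θ : ℝ := (r - μ * r) / (r - tw) with hθ
    have hθd : θ * (r - tw) = r - μ * r := by rw [hθ]; field_simp
    have hθ0 : 0 ≤ θ := by
      rw [hθ]; apply div_nonneg _ hd.le; nlinarith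
    have hθ1 : θ ≤ 1 := by rw [hθ, div_le_one hd]; linarith
    have hend0 : p + r • w ∈ Lev T 0 := by rw [Lev_of_nonpos T le_rfl]; exact hend
    have hmem : p + (μ * r) • w ∈ θ • Lev T (L * (1 - tw / r) + m) + (1 - θ) • Lev T 0 := by
      have e1 : μ * r = θ * tw + (1 - θ) * r := by linarith
      have : p + (μ * r) • w = θ • (p + tw • w) + (1 - θ) • (p + r • w) := by
        rw [e1]; module
      rw [this]
      exact Set.add_mem_add (Set.smul_mem_smul_set hbad) (Set.smul_mem_smul_set hend0)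
    have h2 := Lev_combo hTc hθ0 (sub_nonneg.2 hθ1) (by ring) (L * (1 - tw / r) + m) 0 hmem
    refine Lev_anti T ?_ h2
    have hq : θ * (1 - tw / r) = 1 - μ := by
      have : 1 - tw / r = (r - tw) / r := by field_simp
      rw [this, ← mul_div_assoc, hθd]; field_simp
    have hθμ : 1 - μ ≤ θ := by
      have h1 : 1 - tw / r ≤ 1 := by
        have : 0 ≤ tw / r := div_nonneg htw0 hr.le
        linarith
      have : θ * (1 - tw / r) ≤ θ * 1 := mul_le_mul_of_nonneg_left h1 hθ0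
      linarith
    have e : θ * (L * (1 - tw / r) + m) + (1 - θ) * 0 = L * (θ * (1 - tw / r)) + θ * m := by ring
    rw [e, hq]
    nlinarith [mul_le_mul_of_nonneg_right hθμ hm0, mul_nonneg (sub_nonneg.2 hμl) hL0,
      mul_nonneg hm0 (sub_nonneg.2 hl2)]

/-- A ray from a point of a compact set leaves the set at a last parameter. -/
theorem gr_ray_max {S : Set X} (hS : IsCompact S) {p w : X} (hp : p ∈ S) (hw : ‖w‖ = 1) :
    ∃ r : ℝ, 0 ≤ r ∧ p + r • w ∈ S ∧ ∀ t : ℝ, p + t • w ∈ S → t ≤ r := by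
  set A : Set ℝ := {t | p + t • w ∈ S} with hA
  have hcl : IsClosed A := by
    have hc : Continuous fun t : ℝ => p + t • w := by fun_prop
    exact hS.isClosed.preimage hc
  obtain ⟨M, hM⟩ := hS.isBounded.exists_norm_le
  have hsub : A ⊆ Icc (-(M + ‖p‖)) (M + ‖p‖) := by
    intro t ht
    have h1 : ‖p + t • w‖ ≤ M := hM _ ht
    have h2 : ‖t • w‖ ≤ ‖p + t • w‖ + ‖p‖ := by
      have h3 : ‖(p + t • w) - p‖ ≤ ‖p + t • w‖ + ‖p‖ := norm_sub_le (p + t • w) p
      have h4 : (p + t • w) - p = t • w := by abel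
      rw [h4] at h3
      exact h3
    rw [norm_smul, hw, mul_one, Real.norm_eq_abs] at h2
    have h3 : |t| ≤ M + ‖p‖ := by linarith
    exact abs_le.1 h3
  have hAc : IsCompact A := isCompact_Icc.of_isClosed_subset hcl hsub
  have h0 : (0 : ℝ) ∈ A := by simp [hA, hp]
  obtain ⟨r, hrA, hrmax⟩ := hAc.exists_isGreatest ⟨0, h0⟩
  exact ⟨r, hrmax h0, hrA, fun t ht => hrmax ht⟩

/-- The component of a vector orthogonal to a unit vector is no longer than the vector. -/
theorem gr_norm_orth_le (v w : X) (hw : ‖w‖ = 1) : ‖v - inner ℝ v w • w‖ ≤ ‖v‖ := by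
  have h : ‖v - inner ℝ v w • w‖ ^ 2 = ‖v‖ ^ 2 - (inner ℝ v w) ^ 2 := by
    rw [norm_sub_sq_real, inner_smul_right, norm_smul, hw, mul_one, Real.norm_eq_abs, sq_abs]
    ring
  have h2 : ‖v - inner ℝ v w • w‖ ^ 2 ≤ ‖v‖ ^ 2 := by rw [h]; nlinarith [sq_nonneg (inner ℝ v w)]
  exact le_of_sq_le_sq h2 (norm_nonneg v) |> fun h => h

/-- The cone with apex `p` over a set `Q`. -/
def Gam (p : X) (Q : Set X) : Set X := {x | ∃ q ∈ Q, ∃ τ : ℝ, 0 ≤ τ ∧ x = p + τ • (q - p)}

theorem gam_convex {p : X} {Q : Set X} (hQ : Convex ℝ Q) (hQne : Q.Nonempty) :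
    Convex ℝ (Gam p Q) := by
  rintro x ⟨q1, hq1, t1, ht1, rfl⟩ y ⟨q2, hq2, t2, ht2, rfl⟩ a b ha hb hab
  obtain rfl : b = 1 - a := by linarith
  set σ : ℝ := a * t1 + (1 - a) * t2 with hσ
  have hσ0 : 0 ≤ σ := by rw [hσ]; positivity
  rcases hσ0.eq_or_lt with h0 | hpos
  · obtain ⟨q, hq⟩ := hQne
    refine ⟨q, hq, 0, le_rfl, ?_⟩
    have h1 : a * t1 = 0 := by nlinarith [mul_nonneg ha ht1, mul_nonneg hb ht2]
    have h2 : (1 - a) * t2 = 0 := by nlinarith [mul_nonneg ha ht1, mul_nonneg hb ht2]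
    have e : a • (p + t1 • (q1 - p)) + (1 - a) • (p + t2 • (q2 - p)) =
        p + (a * t1) • (q1 - p) + ((1 - a) * t2) • (q2 - p) := by module
    rw [e, h1, h2]
    simp
  · refine ⟨(a * t1 / σ) • q1 + ((1 - a) * t2 / σ) • q2, ?_, σ, hσ0, ?_⟩
    · apply hQ hq1 hq2
      · exact div_nonneg (mul_nonneg ha ht1) hσ0
      · exact div_nonneg (mul_nonneg hb ht2) hσ0
      · rw [← add_div, ← hσ, div_self hpos.ne']
    · have e1 : σ • ((a * t1 / σ) • q1 + ((1 - a) * t2 / σ) • q2 - p) =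
          (a * t1) • q1 + ((1 - a) * t2) • q2 - σ • p := by
        rw [smul_sub, smul_add, smul_smul, smul_smul, mul_div_cancel₀ _ hpos.ne',
          mul_div_cancel₀ _ hpos.ne']
      rw [e1, hσ]
      module

theorem gam_homothety {p : X} {Q : Set X} (x : X) {s : ℝ} (hs : 0 < s) :
    p + s • (x - p) ∈ Gam p Q ↔ x ∈ Gam p Q := by
  constructor
  · rintro ⟨q, hq, τ, hτ, h⟩
    refine ⟨q, hq, τ / s, div_nonneg hτ hs.le, ?_⟩
    have h1 : s • (x - p) = τ • (q - p) := add_left_cancel h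
    have h2 : x - p = (τ / s) • (q - p) := by
      rw [div_eq_inv_mul, ← smul_smul, ← h1, smul_smul, inv_mul_cancel₀ hs.ne', one_smul]
    rw [← h2]
    abel
  · rintro ⟨q, hq, τ, hτ, rfl⟩
    refine ⟨q, hq, s * τ, mul_nonneg hs.le hτ, ?_⟩
    module

/-- If every admissible ray carries a bad point, the chord function is lifted above the cone
function on the middle part of the cone over the half-disc. -/
theorem gr_lift {T : Set (X × ℝ)} (hT : IsCompact T) (hTc : Convex ℝ T) {q0 p : X}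
    {ρ L m : ℝ} (hρ : 0 < ρ) (hm0 : 0 ≤ m) (hmL : m ≤ L)
    (hin : Metric.closedBall q0 ρ ⊆ Prod.fst '' T) (hp : p ∈ Lev T L)
    (hneg : ∀ (w : X) (r : ℝ), ‖w‖ = 1 → ρ / 2 ≤ r → p + r • w ∈ Prod.fst '' T →
      (∀ t : ℝ, p + t • w ∈ Prod.fst '' T → t ≤ r) →
      ‖(q0 - p) - inner ℝ (q0 - p) w • w‖ ≤ ρ / 2 →
      ∃ t ∈ Icc (0 : ℝ) r, ∃ z z' : ℝ, (p + t • w, z) ∈ T ∧ (p + t • w, z') ∈ T ∧
        L * (1 - t / r) + m < z' - z)
    {y : X} (hyS : y ∈ Prod.fst '' T) (hyG : y ∈ Gam p (Metric.closedBall q0 (ρ / 2)))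
    {lam : ℝ} (hl1 : 1 / 4 ≤ lam) (hl2 : lam ≤ 3 / 4) :
    p + lam • (y - p) ∈ Lev T (L * (1 - lam) + m / 4) := by
  obtain ⟨q, hq, τ, hτ, rfl⟩ := hyG
  have hL0 : 0 ≤ L := hm0.trans hmL
  by_cases hyp : τ • (q - p) = 0
  · rw [hyp]
    simp only [add_zero, sub_self, smul_zero]
    exact Lev_anti T (by nlinarith) hp
  · have hqp : q - p ≠ 0 := fun h => hyp (by rw [h, smul_zero])
    have hτ0 : τ ≠ 0 := fun h => hyp (by rw [h, zero_smul])
    have hτpos : 0 < τ := lt_of_le_of_ne hτ (Ne.symm hτ0)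
    set d : ℝ := ‖q - p‖ with hd
    have hdpos : 0 < d := norm_pos_iff.2 hqp
    set w : X := d⁻¹ • (q - p) with hw
    have hwn : ‖w‖ = 1 := by
      rw [hw, norm_smul, norm_inv, Real.norm_eq_abs, abs_of_pos hdpos, inv_mul_cancel₀ hdpos.ne']
    have hqw : q - p = d • w := by
      rw [hw, smul_smul, mul_inv_cancel₀ hdpos.ne', one_smul]
    have hpS : p ∈ Prod.fst '' T := Lev_subset_fst T L hp
    obtain ⟨r, hr0, hrS, hrmax⟩ := gr_ray_max (hT.image continuous_fst) hpS hwn
    have hq' : ‖q - q0‖ ≤ ρ / 2 := by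
      rw [← dist_eq_norm]; exact Metric.mem_closedBall.1 hq
    have h1 : p + (d + ρ / 2) • w ∈ Prod.fst '' T := by
      apply hin
      rw [Metric.mem_closedBall, dist_eq_norm]
      have e : p + (d + ρ / 2) • w - q0 = (q - q0) + (ρ / 2) • w := by
        rw [add_smul, ← hqw]; abel
      rw [e]
      calc ‖(q - q0) + (ρ / 2) • w‖ ≤ ‖q - q0‖ + ‖(ρ / 2) • w‖ := norm_add_le _ _
        _ ≤ ρ / 2 + ρ / 2 := by
          apply add_le_add hq'
          rw [norm_smul, hwn, mul_one, Real.norm_eq_abs, abs_of_pos (by positivity)]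
        _ = ρ := by ring
    have hrd : d + ρ / 2 ≤ r := hrmax _ h1
    have hrρ : ρ / 2 ≤ r := by linarith
    have hrpos : 0 < r := by linarith
    have hline : ‖(q0 - p) - inner ℝ (q0 - p) w • w‖ ≤ ρ / 2 := by
      have e : (q0 - p) - inner ℝ (q0 - p) w • w = (q0 - q) - inner ℝ (q0 - q) w • w := by
        have e0 : q0 - p = (q0 - q) + d • w := by rw [← hqw]; abel
        rw [e0, inner_add_left, inner_smul_left, real_inner_self_eq_norm_sq, hwn]
        simp only [conj_trivial, one_pow, mul_one]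
        module
      rw [e]
      calc ‖(q0 - q) - inner ℝ (q0 - q) w • w‖ ≤ ‖q0 - q‖ := gr_norm_orth_le _ _ hwn
        _ ≤ ρ / 2 := by rw [norm_sub_rev]; exact hq'
    obtain ⟨t, ht, z, z', hz, hz', hlt⟩ := hneg w r hwn hrρ hrS hrmax hline
    have hbad : p + t • w ∈ Lev T (L * (1 - t / r) + m) := ⟨z, z', hz, hz', hlt.le⟩
    have hy : p + τ • (q - p) = p + (τ * d) • w := by rw [hqw, smul_smul]
    have hτd : τ * d ≤ r := hrmax _ (by rw [← hy]; exact hyS)
    have hlam0 : 0 < lam := by linarith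
    set μ : ℝ := lam * (τ * d) / r with hμ
    have hμr : μ * r = lam * (τ * d) := by rw [hμ]; field_simp
    have hμ0 : 0 < μ := by rw [hμ]; positivity
    have hμl : μ ≤ lam := by
      rw [hμ, div_le_iff₀ hrpos]
      exact mul_le_mul_of_nonneg_left hτd hlam0.le
    have key := gr_interp hTc hrpos hm0 hmL hp hrS ht.1 ht.2 hbad hμ0 hμl hl1 hl2
    have e2 : p + lam • (p + τ • (q - p) - p) = p + (μ * r) • w := by
      rw [hμr, hqw]; module
    rw [e2]
    exact key

end Base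

section Meas

variable {X : Type*} [NormedAddCommGroup X] [InnerProductSpace ℝ X] [FiniteDimensional ℝ X]
  [MeasurableSpace X] [BorelSpace X]

theorem gr_int_sq (L κ A a b : ℝ) (hL : L ≠ 0) :
    ∫ h in a..b, (κ - h / L) ^ 2 * A = L / 3 * ((κ - a / L) ^ 3 - (κ - b / L) ^ 3) * A := by
  have hderiv : ∀ x ∈ uIcc a b,
      HasDerivAt (fun h : ℝ => -(L / 3) * (κ - h / L) ^ 3 * A) ((κ - x / L) ^ 2 * A) x := by
    intro x _
    have h1 : HasDerivAt (fun h : ℝ => κ - h / L) (-(1 / L)) x :=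
      ((hasDerivAt_id x).div_const L).const_sub κ
    have h3 := ((h1.pow 3).const_mul (-(L / 3))).mul_const A
    have h4 : HasDerivAt (fun h : ℝ => -(L / 3) * (κ - h / L) ^ 3 * A)
        (-(L / 3) * (((3 : ℕ) : ℝ) * (κ - x / L) ^ (3 - 1) * -(1 / L)) * A) x := h3
    refine h4.congr_deriv ?_
    have e3 : (((3 : ℕ) : ℝ)) = 3 := by norm_num
    have e : -(L / 3) * ((3 : ℝ) * (κ - x / L) ^ 2 * -(1 / L)) = (κ - x / L) ^ 2 := by
      generalize κ - x / L = y
      field_simp
    rw [e3]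
    show -(L / 3) * ((3 : ℝ) * (κ - x / L) ^ 2 * -(1 / L)) * A = (κ - x / L) ^ 2 * A
    rw [e]
  rw [intervalIntegral.integral_eq_sub_of_hasDerivAt hderiv]
  · ring
  · exact Continuous.intervalIntegrable (by fun_prop) a b

/-- The cone step: the level set at height `h` contains the homothetic copy of the shadow. -/
theorem gr_level_all (hX : finrank ℝ X = 2) {T : Set (X × ℝ)} (hTc : Convex ℝ T) {p : X}
    {L h : ℝ} (hL : 0 < L) (hp : p ∈ Lev T L) (hh0 : 0 ≤ h) (hhL : h ≤ L) :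
    ENNReal.ofReal ((1 - h / L) ^ 2) * volume (Prod.fst '' T) ≤ volume (Lev T h) := by
  set s : ℝ := 1 - h / L with hs
  have hs0 : 0 ≤ s := by
    rw [hs, sub_nonneg, div_le_one hL]; exact hhL
  have hs1 : s ≤ 1 := by
    have : 0 ≤ h / L := div_nonneg hh0 hL.le
    linarith
  have hsub : AffineMap.homothety p s '' (Prod.fst '' T) ⊆ Lev T h := by
    rintro _ ⟨x, hx, rfl⟩
    have hx0 : x ∈ Lev T 0 := by rw [Lev_of_nonpos T le_rfl]; exact hx
    have hmem : AffineMap.homothety p s x ∈ s • Lev T 0 + (1 - s) • Lev T L := by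
      have : AffineMap.homothety p s x = s • x + (1 - s) • p := by
        rw [AffineMap.homothety_apply]
        simp only [vsub_eq_sub, vadd_eq_add]
        module
      rw [this]
      exact Set.add_mem_add (Set.smul_mem_smul_set hx0) (Set.smul_mem_smul_set hp)
    have h2 := Lev_combo hTc hs0 (sub_nonneg.2 hs1) (by ring) 0 L hmem
    refine Lev_anti T ?_ h2
    have : s * 0 + (1 - s) * L = h := by rw [hs]; field_simp; ring
    rw [this]
  calc ENNReal.ofReal (s ^ 2) * volume (Prod.fst '' T)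
      = volume (AffineMap.homothety p s '' (Prod.fst '' T)) := by
        rw [Measure.addHaar_image_homothety, hX, abs_of_nonneg (sq_nonneg s)]
    _ ≤ volume (Lev T h) := measure_mono hsub

/-- On the middle band of heights the level set contains a larger copy of the part of the shadow
inside the cone. -/
theorem gr_level_band (hX : finrank ℝ X = 2) {T : Set (X × ℝ)} (hTc : Convex ℝ T) {p : X}
    {G : Set X} (hGc : Convex ℝ G)
    (hGinv : ∀ (x : X) (s : ℝ), 0 < s → (p + s • (x - p) ∈ G ↔ x ∈ G))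
    {L m h : ℝ} (hL : 0 < L) (hp : p ∈ Lev T L)
    (hlift : ∀ y ∈ Prod.fst '' T ∩ G, ∀ lam : ℝ, 1 / 4 ≤ lam → lam ≤ 3 / 4 →
      p + lam • (y - p) ∈ Lev T (L * (1 - lam) + m / 4))
    (hh0 : 0 ≤ h) (hh1 : L / 4 + m / 4 ≤ h) (hh2 : h ≤ 3 * L / 4 + m / 4) (hhL : h < L) :
    ENNReal.ofReal ((1 + m / (4 * L) - h / L) ^ 2) * volume (Prod.fst '' T ∩ G) +
      ENNReal.ofReal ((1 - h / L) ^ 2) * volume (Prod.fst '' T \ G) ≤ volume (Lev T h) := by
  set s : ℝ := 1 - h / L with hs
  set lam : ℝ := 1 + m / (4 * L) - h / L with hlam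
  have hs0 : 0 < s := by
    rw [hs, sub_pos, div_lt_one hL]; exact hhL
  have hs1 : s ≤ 1 := by
    have : 0 ≤ h / L := div_nonneg hh0 hL.le
    linarith
  have hhL' : h / L * L = h := by field_simp
  have hmL' : m / (4 * L) * L = m / 4 := by field_simp
  have hl1 : 1 / 4 ≤ lam := by
    have : (1 / 4) * L ≤ lam * L := by
      rw [hlam, sub_mul, add_mul, hhL', hmL']; linarith
    exact le_of_mul_le_mul_right this hL
  have hl2 : lam ≤ 3 / 4 := by
    have : lam * L ≤ (3 / 4) * L := by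
      rw [hlam, sub_mul, add_mul, hhL', hmL']; linarith
    exact le_of_mul_le_mul_right this hL
  have hlam0 : 0 < lam := by linarith
  have hlev : L * (1 - lam) + m / 4 = h := by
    rw [hlam]; field_simp; ring
  have hA : AffineMap.homothety p lam '' (Prod.fst '' T ∩ G) ⊆ Lev T h ∩ G := by
    rintro _ ⟨y, hy, rfl⟩
    have e : AffineMap.homothety p lam y = p + lam • (y - p) := by
      rw [AffineMap.homothety_apply]
      simp only [vsub_eq_sub, vadd_eq_add]
      abel
    rw [e]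
    refine ⟨?_, (hGinv y lam hlam0).2 hy.2⟩
    have := hlift y hy lam hl1 hl2
    rwa [hlev] at this
  have hB : AffineMap.homothety p s '' (Prod.fst '' T \ G) ⊆ Lev T h \ G := by
    rintro _ ⟨x, hx, rfl⟩
    have e : AffineMap.homothety p s x = p + s • (x - p) := by
      rw [AffineMap.homothety_apply]
      simp only [vsub_eq_sub, vadd_eq_add]
      abel
    refine ⟨?_, ?_⟩
    · have hx0 : x ∈ Lev T 0 := by rw [Lev_of_nonpos T le_rfl]; exact hx.1
      have hmem : AffineMap.homothety p s x ∈ s • Lev T 0 + (1 - s) • Lev T L := by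
        have : AffineMap.homothety p s x = s • x + (1 - s) • p := by
          rw [e]; module
        rw [this]
        exact Set.add_mem_add (Set.smul_mem_smul_set hx0) (Set.smul_mem_smul_set hp)
      have h2 := Lev_combo hTc hs0.le (sub_nonneg.2 hs1) (by ring) 0 L hmem
      refine Lev_anti T ?_ h2
      have : s * 0 + (1 - s) * L = h := by rw [hs]; field_simp; ring
      rw [this]
    · rw [e]
      exact fun hmem => hx.2 ((hGinv x s hs0).1 hmem)
  have hsplit : volume (Lev T h ∩ G) + volume (Lev T h \ G) = volume (Lev T h) :=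
    measure_inter_add_sdiff₀ (Lev T h) (hGc.nullMeasurableSet volume)
  rw [← hsplit]
  apply add_le_add
  · calc ENNReal.ofReal (lam ^ 2) * volume (Prod.fst '' T ∩ G)
        = volume (AffineMap.homothety p lam '' (Prod.fst '' T ∩ G)) := by
          rw [Measure.addHaar_image_homothety, hX, abs_of_nonneg (sq_nonneg lam)]
      _ ≤ volume (Lev T h ∩ G) := measure_mono hA
  · calc ENNReal.ofReal (s ^ 2) * volume (Prod.fst '' T \ G)
        = volume (AffineMap.homothety p s '' (Prod.fst '' T \ G)) := by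
          rw [Measure.addHaar_image_homothety, hX, abs_of_nonneg (sq_nonneg s)]
      _ ≤ volume (Lev T h \ G) := measure_mono hB

theorem gr_lintegral_ofReal_Ioc {f : ℝ → ℝ} (hf : Continuous f) {a b : ℝ} (hab : a ≤ b)
    (hnn : ∀ x ∈ Ioc a b, 0 ≤ f x) :
    ∫⁻ r in Ioc a b, ENNReal.ofReal (f r) = ENNReal.ofReal (∫ r in a..b, f r) := by
  rw [intervalIntegral.integral_of_le hab, ofReal_integral_eq_lintegral_ofReal]
  · exact (hf.intervalIntegrable a b).1
  · exact (ae_restrict_iff' measurableSet_Ioc).2 (Filter.Eventually.of_forall hnn)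

/-- The refined cone inequality: the lift on the middle band adds a definite amount of volume. -/
theorem gr_volume_lower (hX : finrank ℝ X = 2) {T : Set (X × ℝ)} (hT : IsCompact T)
    (hTc : Convex ℝ T) {p : X} {G : Set X} (hGc : Convex ℝ G)
    (hGinv : ∀ (x : X) (s : ℝ), 0 < s → (p + s • (x - p) ∈ G ↔ x ∈ G))
    {L m : ℝ} (hL : 0 < L) (hm0 : 0 ≤ m) (hmL : m ≤ L / 4) (hp : p ∈ Lev T L)
    (hlift : ∀ y ∈ Prod.fst '' T ∩ G, ∀ lam : ℝ, 1 / 4 ≤ lam → lam ≤ 3 / 4 →
      p + lam • (y - p) ∈ Lev T (L * (1 - lam) + m / 4)) :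
    L * (volume (Prod.fst '' T)).toReal / 3 +
        m / 8 * (1 - m / (4 * L)) * (volume (Prod.fst '' T ∩ G)).toReal ≤
      ((volume.prod volume) T).toReal := by
  set S : Set X := Prod.fst '' T with hS
  have hSc : IsCompact S := hT.image continuous_fst
  have hSfin : volume S ≠ ⊤ := hSc.measure_lt_top.ne
  have hcfin : volume (S ∩ G) ≠ ⊤ := ne_top_of_le_ne_top hSfin (measure_mono inter_subset_left)
  have hdfin : volume (S \ G) ≠ ⊤ := ne_top_of_le_ne_top hSfin (measure_mono sdiff_subset)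
  set AS : ℝ := (volume S).toReal with hAS
  set Ac : ℝ := (volume (S ∩ G)).toReal with hAc
  set Ad : ℝ := (volume (S \ G)).toReal with hAd
  have hsum : Ac + Ad = AS := by
    rw [hAc, hAd, ← ENNReal.toReal_add hcfin hdfin,
      measure_inter_add_sdiff₀ S (hGc.nullMeasurableSet volume)]
  have hAS0 : 0 ≤ AS := ENNReal.toReal_nonneg
  have hAc0 : 0 ≤ Ac := ENNReal.toReal_nonneg
  have hAd0 : 0 ≤ Ad := ENNReal.toReal_nonneg
  set μ : ℝ := m / (4 * L) with hμ
  set h1 : ℝ := L / 4 + m / 4 with hh1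
  set h2 : ℝ := 3 * L / 4 + m / 4 with hh2
  have hμ0 : 0 ≤ μ := by rw [hμ]; positivity
  have hLμ : m = 4 * L * μ := by rw [hμ]; field_simp
  have h10 : 0 ≤ h1 := by rw [hh1]; positivity
  have h12 : h1 ≤ h2 := by rw [hh1, hh2]; linarith
  have h2L : h2 < L := by rw [hh2]; linarith
  have e1 : h1 / L = 1 / 4 + μ := by rw [hh1, hμ]; field_simp
  have e2 : h2 / L = 3 / 4 + μ := by rw [hh2, hμ]; field_simp
  set f1 : ℝ → ℝ := fun h => (1 - h / L) ^ 2 * AS with hf1
  set f2 : ℝ → ℝ := fun h => (1 + μ - h / L) ^ 2 * Ac - (1 - h / L) ^ 2 * Ac with hf2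
  have hf1c : Continuous f1 := by rw [hf1]; fun_prop
  have hf2c : Continuous f2 := by rw [hf2]; fun_prop
  have hf1nn : ∀ h, 0 ≤ f1 h := fun h => by simp only [hf1]; positivity
  have hf2nn : ∀ h ∈ Ioc h1 h2, 0 ≤ f2 h := by
    intro h hh
    have hhL : h / L ≤ 1 := by
      rw [div_le_one hL]; linarith [hh.2]
    have : (1 - h / L) ^ 2 ≤ (1 + μ - h / L) ^ 2 := by nlinarith
    simp only [hf2]
    nlinarith
  -- pointwise lower bound for the measure of the level sets
  have hpt : ∀ h ∈ Ioc (0 : ℝ) L,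
      ENNReal.ofReal (f1 h) + (Ioc h1 h2).indicator (fun h => ENNReal.ofReal (f2 h)) h ≤
        volume (Lev T h) := by
    intro h hh
    by_cases hb : h ∈ Ioc h1 h2
    · rw [indicator_of_mem hb]
      have hband := gr_level_band hX hTc hGc hGinv hL hp hlift hh.1.le hb.1.le hb.2
        (lt_of_le_of_lt hb.2 h2L)
      have e3 : ENNReal.ofReal ((1 + m / (4 * L) - h / L) ^ 2) * volume (S ∩ G) =
          ENNReal.ofReal ((1 + μ - h / L) ^ 2 * Ac) := by
        rw [ENNReal.ofReal_mul (sq_nonneg _), hAc, ENNReal.ofReal_toReal hcfin]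
      have e4 : ENNReal.ofReal ((1 - h / L) ^ 2) * volume (S \ G) =
          ENNReal.ofReal ((1 - h / L) ^ 2 * Ad) := by
        rw [ENNReal.ofReal_mul (sq_nonneg _), hAd, ENNReal.ofReal_toReal hdfin]
      rw [e3, e4] at hband
      calc ENNReal.ofReal (f1 h) + ENNReal.ofReal (f2 h)
          = ENNReal.ofReal (f1 h + f2 h) := (ENNReal.ofReal_add (hf1nn h) (hf2nn h hb)).symm
        _ = ENNReal.ofReal ((1 + μ - h / L) ^ 2 * Ac + (1 - h / L) ^ 2 * Ad) := by
            congr 1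
            simp only [hf1, hf2]
            rw [← hsum]; ring
        _ = ENNReal.ofReal ((1 + μ - h / L) ^ 2 * Ac) + ENNReal.ofReal ((1 - h / L) ^ 2 * Ad) :=
            ENNReal.ofReal_add (by positivity) (by positivity)
        _ ≤ volume (Lev T h) := hband
    · rw [indicator_of_notMem hb, add_zero]
      have hall := gr_level_all hX hTc hL hp hh.1.le hh.2
      have e5 : ENNReal.ofReal ((1 - h / L) ^ 2) * volume S = ENNReal.ofReal (f1 h) := by
        simp only [hf1]
        rw [ENNReal.ofReal_mul (sq_nonneg _), hAS, ENNReal.ofReal_toReal hSfin]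
      rw [e5] at hall
      exact hall
  have hV : (volume.prod volume) T = ∫⁻ r in Ioi (0 : ℝ), volume (Lev T r) :=
    volume_eq_lintegral_Lev volume hT hTc
  have hVfin : (volume.prod volume) T ≠ ⊤ := hT.measure_lt_top.ne
  have hlow : ∫⁻ h in Ioc (0 : ℝ) L, (ENNReal.ofReal (f1 h) +
      (Ioc h1 h2).indicator (fun h => ENNReal.ofReal (f2 h)) h) ≤ (volume.prod volume) T := by
    rw [hV]
    calc ∫⁻ h in Ioc (0 : ℝ) L, (ENNReal.ofReal (f1 h) +
          (Ioc h1 h2).indicator (fun h => ENNReal.ofReal (f2 h)) h)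
        ≤ ∫⁻ h in Ioc (0 : ℝ) L, volume (Lev T h) := setLIntegral_mono' measurableSet_Ioc hpt
      _ ≤ ∫⁻ h in Ioi (0 : ℝ), volume (Lev T h) := lintegral_mono_set Ioc_subset_Ioi_self
  have hI1 : ∫⁻ h in Ioc (0 : ℝ) L, ENNReal.ofReal (f1 h) = ENNReal.ofReal (L * AS / 3) := by
    rw [gr_lintegral_ofReal_Ioc hf1c hL.le (fun x _ => hf1nn x)]
    congr 1
    simp only [hf1]
    rw [gr_int_sq L 1 AS 0 L hL.ne', zero_div, div_self hL.ne']
    ring
  have hI2 : ∫⁻ h in Ioc h1 h2, ENNReal.ofReal (f2 h) =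
      ENNReal.ofReal (m / 8 * (1 - μ) * Ac) := by
    rw [gr_lintegral_ofReal_Ioc hf2c h12 hf2nn]
    congr 1
    simp only [hf2]
    rw [intervalIntegral.integral_sub (Continuous.intervalIntegrable (by fun_prop) _ _)
      (Continuous.intervalIntegrable (by fun_prop) _ _),
      gr_int_sq L (1 + μ) Ac h1 h2 hL.ne', gr_int_sq L 1 Ac h1 h2 hL.ne', e1, e2, hLμ]
    ring
  have hsubI : Ioc h1 h2 ⊆ Ioc (0 : ℝ) L := fun x hx => ⟨lt_of_le_of_lt h10 hx.1, hx.2.trans h2L.le⟩
  have hI2' : ∫⁻ h in Ioc (0 : ℝ) L, (Ioc h1 h2).indicator (fun h => ENNReal.ofReal (f2 h)) h =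
      ENNReal.ofReal (m / 8 * (1 - μ) * Ac) := by
    rw [lintegral_indicator measurableSet_Ioc, Measure.restrict_restrict measurableSet_Ioc,
      inter_eq_left.2 hsubI, hI2]
  have hm1 : Measurable fun h => ENNReal.ofReal (f1 h) :=
    ENNReal.measurable_ofReal.comp hf1c.measurable
  rw [lintegral_add_left hm1, hI1, hI2'] at hlow
  have hμ1 : μ ≤ 1 := by
    have : 4 * L * μ ≤ 4 * L * 1 := by rw [← hLμ]; linarith
    exact le_of_mul_le_mul_left this (by positivity)
  have hb0 : 0 ≤ m / 8 * (1 - μ) * Ac := by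
    apply mul_nonneg (mul_nonneg (by positivity) (sub_nonneg.2 hμ1)) hAc0
  rw [← ENNReal.ofReal_add (by positivity) hb0] at hlow
  exact (ENNReal.ofReal_le_iff_le_toReal hVfin).1 hlow

/-- **The good ray (product picture).** If the chord over `p` is almost extremal, some ray
from `p` through the half-disc carries chord lengths at most the cone value plus
`6 δ L (R / ρ) ^ 2`. -/
theorem good_ray_prod (hX : finrank ℝ X = 2) {T : Set (X × ℝ)} (hT : IsCompact T)
    (hTc : Convex ℝ T) (q0 p : X) (ρ R L δ : ℝ) (hρ : 0 < ρ) (hρR : ρ ≤ R) (hL : 0 < L)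
    (hδ : 0 < δ) (hδ' : δ ≤ ρ ^ 2 / (24 * R ^ 2))
    (hin : Metric.closedBall q0 ρ ⊆ Prod.fst '' T)
    (hout : Prod.fst '' T ⊆ Metric.closedBall q0 R) (hp : p ∈ Lev T L)
    (hext : (3 - δ) * ((volume.prod volume) T).toReal ≤ L * (volume (Prod.fst '' T)).toReal) :
    ∃ (w : X) (r : ℝ), ‖w‖ = 1 ∧ ρ / 2 ≤ r ∧ p + r • w ∈ Prod.fst '' T ∧
      (∀ t : ℝ, p + t • w ∈ Prod.fst '' T → t ≤ r) ∧
      ‖(q0 - p) - inner ℝ (q0 - p) w • w‖ ≤ ρ / 2 ∧
      ∀ t ∈ Icc (0 : ℝ) r, ∀ z z' : ℝ, (p + t • w, z) ∈ T → (p + t • w, z') ∈ T →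
        z' - z ≤ L * (1 - t / r) + 6 * δ * L * (R / ρ) ^ 2 := by
  by_contra hcon
  set m : ℝ := 6 * δ * L * (R / ρ) ^ 2 with hm
  have hR : 0 < R := lt_of_lt_of_le hρ hρR
  have hm0 : 0 ≤ m := by rw [hm]; positivity
  have hmρ : m * ρ ^ 2 = 6 * δ * L * R ^ 2 := by rw [hm]; field_simp
  have hδR : δ * (24 * R ^ 2) ≤ ρ ^ 2 := by rwa [le_div_iff₀ (by positivity)] at hδ'
  have hmL4 : m ≤ L / 4 := by
    have : m * ρ ^ 2 ≤ L / 4 * ρ ^ 2 := by
      rw [hmρ]
      nlinarith [mul_le_mul_of_nonneg_left hδR hL.le]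
    exact le_of_mul_le_mul_right this (by positivity)
  have hneg : ∀ (w : X) (r : ℝ), ‖w‖ = 1 → ρ / 2 ≤ r → p + r • w ∈ Prod.fst '' T →
      (∀ t : ℝ, p + t • w ∈ Prod.fst '' T → t ≤ r) →
      ‖(q0 - p) - inner ℝ (q0 - p) w • w‖ ≤ ρ / 2 →
      ∃ t ∈ Icc (0 : ℝ) r, ∃ z z' : ℝ, (p + t • w, z) ∈ T ∧ (p + t • w, z') ∈ T ∧
        L * (1 - t / r) + m < z' - z := by
    intro w r hw hr hS hmax hline
    by_contra hno
    apply hcon
    refine ⟨w, r, hw, hr, hS, hmax, hline, ?_⟩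
    intro t ht z z' hz hz'
    by_contra hlt
    exact hno ⟨t, ht, z, z', hz, hz', not_le.1 hlt⟩
  set Q : Set X := Metric.closedBall q0 (ρ / 2) with hQ
  set G : Set X := Gam p Q with hG
  have hQc : Convex ℝ Q := convex_closedBall q0 (ρ / 2)
  have hQne : Q.Nonempty := ⟨q0, Metric.mem_closedBall_self (by positivity)⟩
  have hGc : Convex ℝ G := gam_convex hQc hQne
  have hGinv : ∀ (x : X) (s : ℝ), 0 < s → (p + s • (x - p) ∈ G ↔ x ∈ G) :=
    fun x s hs => gam_homothety x hs
  have hlift : ∀ y ∈ Prod.fst '' T ∩ G, ∀ lam : ℝ, 1 / 4 ≤ lam → lam ≤ 3 / 4 →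
      p + lam • (y - p) ∈ Lev T (L * (1 - lam) + m / 4) :=
    fun y hy lam hl1 hl2 =>
      gr_lift hT hTc hρ hm0 (by linarith) hin hp hneg hy.1 hy.2 hl1 hl2
  have hvol := gr_volume_lower hX hT hTc hGc hGinv hL hm0 hmL4 hp hlift
  have hnt : Nontrivial X := by
    apply Module.nontrivial_of_finrank_pos (R := ℝ)
    rw [hX]; norm_num
  have hQS : Q ⊆ Prod.fst '' T ∩ G := by
    intro q hq
    refine ⟨hin (Metric.closedBall_subset_closedBall (by linarith) hq), q, hq, 1, zero_le_one, ?_⟩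
    simp
  have hSc : IsCompact (Prod.fst '' T) := hT.image continuous_fst
  have hSfin : volume (Prod.fst '' T) ≠ ⊤ := hSc.measure_lt_top.ne
  have hball : ∀ r : ℝ, 0 ≤ r →
      (volume (Metric.closedBall q0 r)).toReal = Real.pi * r ^ 2 := by
    intro r hr
    rw [InnerProductSpace.volume_closedBall_of_dim_even (k := 1) (by rw [hX]) q0 r, hX]
    simp [ENNReal.toReal_mul, ENNReal.toReal_ofReal hr, Real.pi_pos.le]
    ring
  have hAc : Real.pi * (ρ / 2) ^ 2 ≤ (volume (Prod.fst '' T ∩ G)).toReal := by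
    rw [← hball (ρ / 2) (by positivity)]
    exact ENNReal.toReal_mono (ne_top_of_le_ne_top hSfin (measure_mono inter_subset_left))
      (measure_mono hQS)
  have hAS : (volume (Prod.fst '' T)).toReal ≤ Real.pi * R ^ 2 := by
    rw [← hball R hR.le]
    exact ENNReal.toReal_mono (isCompact_closedBall q0 R).measure_lt_top.ne (measure_mono hout)
  set V : ℝ := ((volume.prod volume) T).toReal with hV
  set AS : ℝ := (volume (Prod.fst '' T)).toReal with hASdef
  set Ac : ℝ := (volume (Prod.fst '' T ∩ G)).toReal with hAcdef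
  have hAc0 : 0 ≤ Ac := ENNReal.toReal_nonneg
  have hμ : m / (4 * L) ≤ 1 / 16 := by
    rw [div_le_iff₀ (by positivity)]; linarith
  have hδ1 : δ ≤ 1 / 24 := by
    have : δ * (24 * R ^ 2) ≤ 1 / 24 * (24 * R ^ 2) := by nlinarith
    exact le_of_mul_le_mul_right this (by positivity)
  have h1 : L * AS / 3 + m / 8 * (15 / 16) * Ac ≤ V := by
    have : m / 8 * (15 / 16) * Ac ≤ m / 8 * (1 - m / (4 * L)) * Ac := by
      apply mul_le_mul_of_nonneg_right _ hAc0
      apply mul_le_mul_of_nonneg_left _ (by positivity)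
      linarith
    linarith
  have h3 : (3 - δ) * (L * AS / 3 + m / 8 * (15 / 16) * Ac) ≤ L * AS :=
    le_trans (mul_le_mul_of_nonneg_left h1 (by linarith)) hext
  have h2 : (3 - δ) * (m / 8 * (15 / 16) * Ac) ≤ δ * L * AS / 3 := by
    have e : (3 - δ) * (L * AS / 3 + m / 8 * (15 / 16) * Ac) =
        L * AS - δ * L * AS / 3 + (3 - δ) * (m / 8 * (15 / 16) * Ac) := by ring
    linarith
  have h4 : 2 * (m / 8 * (15 / 16) * (Real.pi * (ρ / 2) ^ 2)) ≤
      (3 - δ) * (m / 8 * (15 / 16) * Ac) := by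
    have hX0 : 0 ≤ m / 8 * (15 / 16) * (Real.pi * (ρ / 2) ^ 2) := by positivity
    have hmono : m / 8 * (15 / 16) * (Real.pi * (ρ / 2) ^ 2) ≤ m / 8 * (15 / 16) * Ac :=
      mul_le_mul_of_nonneg_left hAc (by positivity)
    nlinarith
  have h5 : δ * L * AS / 3 ≤ δ * L * (Real.pi * R ^ 2) / 3 := by
    have : δ * L * AS ≤ δ * L * (Real.pi * R ^ 2) :=
      mul_le_mul_of_nonneg_left hAS (by positivity)
    linarith
  have h6 : 2 * (m / 8 * (15 / 16) * (Real.pi * (ρ / 2) ^ 2)) =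
      15 / 256 * Real.pi * (m * ρ ^ 2) := by ring
  have hpos : 0 < Real.pi * δ * L * R ^ 2 := by positivity
  rw [hmρ] at h6
  nlinarith

end Meas

section Space

variable {E : Type*} [NormedAddCommGroup E] [InnerProductSpace ℝ E] [FiniteDimensional ℝ E]
  [MeasurableSpace E] [BorelSpace E]

/-- **The good ray (space picture).** `K` is a compact convex set of a three-dimensional
Euclidean space between the balls of radii `ρ` and `R` about `c`, and `[e0, e0 + L u]` is a
chord of `K` in the unit direction `u` that is almost extremal: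
`(3 - δ) vol K ≤ L * area (shadow of K along u)`, with `0 < δ ≤ ρ² / (24 R²)`.  Then there are
a unit vector `w ⊥ u` and a last parameter `r ≥ ρ / 2` of the ray `e0 + t w` in the shadow such
that the plane through the chord and the ray passes within `ρ / 2` of `c`, and every chord of
`K` in direction `u` over the point `t` of the ray has length at most
`L (1 - t / r) + 6 δ L (R / ρ) ^ 2`. -/
theorem good_ray (hE : finrank ℝ E = 3) (K : Set E) (hKc : Convex ℝ K) (hK : IsCompact K)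
    (c : E) (ρ R : ℝ) (hρ : 0 < ρ) (hball : Metric.closedBall c ρ ⊆ K)
    (hKR : K ⊆ Metric.closedBall c R) (u e0 : E) (hu : ‖u‖ = 1) (L δ : ℝ) (hL : 0 < L)
    (hδ : 0 < δ) (hδ' : δ ≤ ρ ^ 2 / (24 * R ^ 2)) (he0 : e0 ∈ K) (he1 : e0 + L • u ∈ K)
    (hext : (3 - δ) * (volume K).toReal ≤
      L * (volume ((Submodule.span ℝ {u})ᗮ.orthogonalProjectionOnto '' K)).toReal) :
    ∃ (w : E) (r : ℝ), ‖w‖ = 1 ∧ inner ℝ u w = 0 ∧ ρ / 2 ≤ r ∧
      (∃ z : ℝ, e0 + r • w + z • u ∈ K) ∧
      (∀ t z : ℝ, e0 + t • w + z • u ∈ K → t ≤ r) ∧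
      ‖(c - e0) - inner ℝ (c - e0) w • w - inner ℝ (c - e0) u • u‖ ≤ ρ / 2 ∧
      ∀ t ∈ Icc (0 : ℝ) r, ∀ z1 z2 : ℝ, e0 + t • w + z1 • u ∈ K → e0 + t • w + z2 • u ∈ K →
        z2 - z1 ≤ L * (1 - t / r) + 6 * δ * L * (R / ρ) ^ 2 := by
  have hu0 : u ≠ 0 := by
    rintro rfl
    simp at hu
  have : Fact (finrank ℝ E = 2 + 1) := ⟨hE⟩
  have hH : finrank ℝ ↥(Submodule.span ℝ {u})ᗮ = 2 :=
    Submodule.finrank_orthogonal_span_singleton hu0
  set Ψ := splitEquiv u hu with hΨ
  set T : Set (↥(Submodule.span ℝ {u})ᗮ × ℝ) := Ψ '' K with hTdef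
  have hT : IsCompact T := hK.image Ψ.continuous
  have hTc : Convex ℝ T := hKc.is_linear_image Ψ.isLinear
  have hfst : Prod.fst '' T = (Submodule.span ℝ {u})ᗮ.orthogonalProjectionOnto '' K := by
    ext y
    constructor
    · rintro ⟨_, ⟨x, hx, rfl⟩, rfl⟩
      exact ⟨x, hx, (splitEquiv_fst u hu x).symm⟩
    · rintro ⟨x, hx, rfl⟩
      exact ⟨Ψ x, ⟨x, hx, rfl⟩, splitEquiv_fst u hu x⟩
  have hmp := splitEquiv_measurePreserving u hu
  have hvolT : (volume.prod volume) T = volume K := by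
    rw [← hmp.measure_preimage hT.isClosed.measurableSet.nullMeasurableSet,
      Ψ.injective.preimage_image]
  have hmemT : ∀ (b : ↥(Submodule.span ℝ {u})ᗮ) (t : ℝ), (b, t) ∈ T ↔ (b : E) + t • u ∈ K := by
    intro b t
    exact Set.ext_iff.1 (Vale.Agent.H9.GenK.wf_section u hu K b) t
  set P := (Submodule.span ℝ {u})ᗮ.orthogonalProjectionOnto with hP
  set z0 : ℝ := inner ℝ e0 u with hz0
  have hPe0 : ((P e0 : ↥(Submodule.span ℝ {u})ᗮ) : E) = e0 - z0 • u := coe_proj u hu e0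
  -- the hypotheses of the product statement
  have hρR : ρ ≤ R := by
    have h1 : c + ρ • u ∈ Metric.closedBall c ρ := by
      rw [Metric.mem_closedBall, dist_eq_norm, add_sub_cancel_left, norm_smul, hu, mul_one,
        Real.norm_eq_abs, abs_of_pos hρ]
    have h2 := hKR (hball h1)
    rw [Metric.mem_closedBall, dist_eq_norm, add_sub_cancel_left, norm_smul, hu, mul_one,
      Real.norm_eq_abs, abs_of_pos hρ] at h2
    exact h2
  have hin : Metric.closedBall (P c) ρ ⊆ Prod.fst '' T := by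
    rw [hfst]
    intro x hx
    refine ⟨c + ((x : E) - ((P c : ↥(Submodule.span ℝ {u})ᗮ) : E)), hball ?_, ?_⟩
    · rw [Metric.mem_closedBall, dist_eq_norm, add_sub_cancel_left, ← Submodule.coe_sub,
        ← Submodule.coe_norm, ← dist_eq_norm]
      exact Metric.mem_closedBall.1 hx
    · rw [map_add, ← Submodule.coe_sub,
        Submodule.orthogonalProjectionOnto_mem_subspace_eq_self]
      abel
  have hout : Prod.fst '' T ⊆ Metric.closedBall (P c) R := by
    rw [hfst]
    rintro _ ⟨y, hy, rfl⟩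
    rw [Metric.mem_closedBall, dist_eq_norm, ← map_sub]
    calc ‖P (y - c)‖ ≤ ‖y - c‖ := Submodule.norm_orthogonalProjectionOnto_apply_le _ _
      _ ≤ R := by rw [← dist_eq_norm]; exact Metric.mem_closedBall.1 (hKR hy)
  have hp : P e0 ∈ Lev T L := by
    refine ⟨z0, z0 + L, ?_, ?_, by linarith⟩
    · rw [hmemT, hPe0]
      have : e0 - z0 • u + z0 • u = e0 := by abel
      rw [this]; exact he0
    · rw [hmemT, hPe0]
      have : e0 - z0 • u + (z0 + L) • u = e0 + L • u := by module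
      rw [this]; exact he1
  have hext' : (3 - δ) * ((volume.prod volume) T).toReal ≤
      L * (volume (Prod.fst '' T)).toReal := by
    rw [hvolT, hfst]; exact hext
  obtain ⟨w', r, hw', hr, hrS, hrmax, hline, H1⟩ :=
    good_ray_prod hH hT hTc (P c) (P e0) ρ R L δ hρ hρR hL hδ hδ' hin hout hp hext'
  have hcoe : ∀ t z : ℝ,
      (((P e0 + t • w' : ↥(Submodule.span ℝ {u})ᗮ)) : E) + (z0 + z) • u =
        e0 + t • (w' : E) + z • u := by
    intro t z
    rw [Submodule.coe_add, Submodule.coe_smul, hPe0]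
    module
  have huw : inner ℝ u (w' : E) = 0 :=
    (Submodule.mem_orthogonal_singleton_iff_inner_right).1 w'.2
  refine ⟨(w' : E), r, ?_, huw, hr, ?_, ?_, ?_, ?_⟩
  · rw [← Submodule.coe_norm]; exact hw'
  · obtain ⟨⟨b, z⟩, hbz, hb⟩ := hrS
    simp only at hb
    subst hb
    refine ⟨z - z0, ?_⟩
    have h := (hmemT _ _).1 hbz
    have e := hcoe r (z - z0)
    rw [show z0 + (z - z0) = z by ring] at e
    rw [← e]; exact h
  · intro t z hz
    apply hrmax t
    refine ⟨(P e0 + t • w', z0 + z), ?_, rfl⟩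
    rw [hmemT, hcoe]; exact hz
  · have e : (c - e0) - inner ℝ (c - e0) (w' : E) • (w' : E) - inner ℝ (c - e0) u • u =
        (((P c - P e0) - inner ℝ (P c - P e0) w' • w' : ↥(Submodule.span ℝ {u})ᗮ) : E) := by
      have h1 : (((P c - P e0 : ↥(Submodule.span ℝ {u})ᗮ)) : E) =
          (c - e0) - inner ℝ (c - e0) u • u := by
        rw [← map_sub]; exact coe_proj u hu (c - e0)
      have h2 : inner ℝ (P c - P e0) w' = inner ℝ (c - e0) (w' : E) := by
        rw [Submodule.coe_inner, h1, inner_sub_left, inner_smul_left, huw]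
        simp
      rw [Submodule.coe_sub, Submodule.coe_smul, h1, h2]
      abel
    rw [e, ← Submodule.coe_norm]
    exact hline
  · intro t ht z1 z2 h1 h2
    have h1' : (P e0 + t • w', z0 + z1) ∈ T := by rw [hmemT, hcoe]; exact h1
    have h2' : (P e0 + t • w', z0 + z2) ∈ T := by rw [hmemT, hcoe]; exact h2
    have := H1 t ht (z0 + z1) (z0 + z2) h1' h2'
    linarith

end Space

end Vale.Agent.H82.GenK
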